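import Vale.Agent.P280Z.Gp.Sk
import Vale.Agent.P281Z.Defs

/-!
# P300L: what the join needs from one surface
-/

open scoped Manifold ContDiff Topology Matrix
open Set Filter
open Vale.Agent.P272.K Vale.Agent.P281Z
open Vale.Agent.P277Z (Hol)
open Vale.Agent.P280Z.Gp (Lifts)

noncomputable section

namespace Vale.Agent.P300LZ

/-- the point `m + n τ` of the lattice -/
def lat (τ : ℂ) (g : ℤ × ℤ) : ℂ := g.1 + g.2 * τ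

/-- the points `[y₁ : y₂]` and `[y₁' : y₂']` of the join are equal -/
def Same {N₁ N₂ : ℕ} (y₁ y₁' : Cm N₁) (y₂ y₂' : Cm N₂) : Prop :=
  ∃ e : ℂ, y₁ = e • y₁' ∧ y₂ = e • y₂'

/-- A projective surface `X` with two embeddings `s₁`, `s₂`, an elliptic curve `Φ : ℂ / (ℤ + ℤ τ) → X`
and a holomorphic section `[s₁ : μ s₂]` of the join over the curve. A finite index subgroup of the
lattice dies in `X`; over every compact subset of the covering `Xh` the join has a continuous section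
`[s₁ : F s₂]`, and the quotient `μ / F` winds `φ g` times along the loop `g`. -/
structure Surf (τ : ℂ) : Type 1 where
  X : Mf 2
  κ : Type
  O : κ → Set X.X
  N₁ : ℕ
  N₂ : ℕ
  s₁ : κ → X.X → Cm N₁
  s₂ : κ → X.X → Cm N₂
  l₁ : Lifts 2 O s₁
  l₂ : Lifts 2 O s₂
  Φ : ℂ → X.X
  cont : Continuous Φ
  hol : ∀ z (e : Chart 2 X.X), At e (Φ z) →
    AnalyticAt ℂ (fun w => e (Φ w)) z ∧ deriv (fun w => e (Φ w)) z ≠ 0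
  inj : ∀ z z', Φ z = Φ z' ↔ ∃ g, z' = z + lat τ g
  μ : κ → X.X → ℂ
  μhol : ∀ b z, Φ z ∈ O b → Hol 2 (μ b) (Φ z) ∧ μ b (Φ z) ≠ 0
  μchg : ∀ b b' z, Φ z ∈ O b → Φ z ∈ O b' →
    Same (s₁ b (Φ z)) (s₁ b' (Φ z)) (μ b (Φ z) • s₂ b (Φ z)) (μ b' (Φ z) • s₂ b' (Φ z))
  r₁ : ∀ b, ∀ x ∈ O b, ∃ (t₁ : Cm N₁) (t₂ : Cm N₂), t₁ ⬝ᵥ s₁ b x ≠ 0 ∧
    ∀ c z, Φ z ∈ O c → t₁ ⬝ᵥ s₁ c (Φ z) = μ c (Φ z) * (t₂ ⬝ᵥ s₂ c (Φ z))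
  r₂ : ∀ b, ∀ x ∈ O b, ∃ (t₁ : Cm N₁) (t₂ : Cm N₂), t₂ ⬝ᵥ s₂ b x ≠ 0 ∧
    ∀ c z, Φ z ∈ O c → t₁ ⬝ᵥ s₁ c (Φ z) = μ c (Φ z) * (t₂ ⬝ᵥ s₂ c (Φ z))
  r₃ : ∀ b, ∀ x ∈ O b, x ∉ range Φ → ∃ t₁ : Cm N₁, t₁ ⬝ᵥ s₁ b x ≠ 0 ∧
    ∀ c z, Φ z ∈ O c → t₁ ⬝ᵥ s₁ c (Φ z) = 0
  Xh : Type
  [top : TopologicalSpace Xh]
  q : Xh → X.X
  cov : IsCoveringMap q
  Φh : C(ℂ, Xh)
  q_Φh : ∀ z, q (Φh z) = Φ z
  per : ∀ z g, Φh (z + lat τ g) = Φh z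
  null : ∃ N : ℕ, 0 < N ∧ ∀ g, ∃ H : C(ℝ × ℝ, Xh), ∀ s : ℝ, H (s, 0) = Φh (s * (N * lat τ g)) ∧
    H (s, 1) = Φh 0 ∧ H (0, s) = Φh 0 ∧ H (1, s) = Φh 0
  φ : ℤ × ℤ →+ ℤ
  φne : φ ≠ 0
  triv : ∀ K : Set Xh, IsCompact K → ∃ (F : κ → Xh → ℂ) (l : C(ℂ, ℂ)),
    (∀ b, ContinuousOn (F b) (K ∩ q ⁻¹' O b)) ∧ (∀ b, ∀ x ∈ K, q x ∈ O b → F b x ≠ 0) ∧
    (∀ b b', ∀ x ∈ K, q x ∈ O b → q x ∈ O b' →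
      Same (s₁ b (q x)) (s₁ b' (q x)) (F b x • s₂ b (q x)) (F b' x • s₂ b' (q x))) ∧
    (∀ b z, Φ z ∈ O b → Φh z ∈ K → μ b (Φ z) = Complex.exp (l z) * F b (Φh z)) ∧
    ∀ z g, l (z + lat τ g) = l z + 2 * Real.pi * Complex.I * φ g

attribute [instance] Surf.top

end Vale.Agent.P300LZ
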