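import Vale.Agent.P300LG.Defs2
import Vale.Agent.P300LD.Deep
import Vale.Agent.P300LO.Glue

/-!
# P300LZ: model coordinates on a cluster
-/

open Set Filter Topology Complex
open Vale.Agent.P272.K (Cm)
open Vale.Agent.P300LX Vale.Agent.P300LX.Dat Vale.Agent.P300LG
open Vale.Agent.P288.BQ (act aut Unitary mulVec0 mulVec_vec_apply vec)
open Vale.Agent.P300LD (aut_ne act_lt cont_act act_inv mem_int KK_cpt KK_cvx ex_inv)

noncomputable section

namespace Vale.Agent.P300LZ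

/-- the linear parts of the coordinates of the side `s` -/
def sg (m : Matrix (Fin 3) (Fin 3) ℂ) (s : Bool) : Fin 2 → Lf :=
  if s then ![I • mulVec0 (p := 2) m 2, -I • mulVec0 (p := 2) m 1]
  else ![mulVec0 (p := 2) m 1, mulVec0 (p := 2) m 2]

theorem aff (m : Matrix (Fin 3) (Fin 3) ℂ) (s : Bool) (b : ℝ × ℝ) : ∃ c : ℂ, ∀ z : Cm 2,
    aut m z ≠ 0 → aut m z * lb b (sd s (act m z)) =
      c + (mulVec0 (p := 2) m 0 z - b.1 * sg m s 0 z - b.2 * sg m s 1 z) := by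
  have e0 : ∀ z : Cm 2, aut m z = m 0 0 + mulVec0 (p := 2) m 0 z := fun z => mulVec_vec_apply m 0 z
  have e1 : ∀ z : Cm 2, aut m z ≠ 0 → aut m z * act m z 0 = m 1 0 + mulVec0 (p := 2) m 1 z :=
    fun z h => (mul_div_cancel₀ _ h).trans (mulVec_vec_apply m 1 z)
  have e2 : ∀ z : Cm 2, aut m z ≠ 0 → aut m z * act m z 1 = m 2 0 + mulVec0 (p := 2) m 2 z :=
    fun z h => (mul_div_cancel₀ _ h).trans (mulVec_vec_apply m 2 z)
  cases s
  · refine ⟨m 0 0 - b.1 * m 1 0 - b.2 * m 2 0, fun z h => ?_⟩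
    simp only [lb, sd, sg, Bool.false_eq_true, if_false, Matrix.cons_val_zero, Matrix.cons_val_one]
    linear_combination e0 z - b.1 * e1 z h - b.2 * e2 z h
  · refine ⟨m 0 0 - b.1 * I * m 2 0 + b.2 * I * m 1 0, fun z h => ?_⟩
    simp only [lb, sd, sg, rr, if_true, Matrix.cons_val_zero, Matrix.cons_val_one,
      _root_.smul_apply, smul_eq_mul]
    linear_combination e0 z - b.1 * I * e2 z h + b.2 * I * e1 z h

theorem cont_aut (m : Matrix (Fin 3) (Fin 3) ℂ) : Continuous (aut (p := 2) m) :=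
  continuous_iff_continuousAt.2 fun z => (P288.BQ.hasFDerivAt_aut m z).continuousAt

variable {D : Dat} {A : Arr D} {y2 ρ : ℝ}

theorem ex_inl (Q : Clu A y2 ρ) {L : A.ι ⊕ A.κ} {j : Bool × Fin 7} (h : Q.ty L = some j) :
    ∃ i, L = .inl i := by
  rcases L with i | α
  · exact ⟨i, rfl⟩
  · exact absurd (((Q.ty_d _).2 ⟨α, rfl⟩).symm.trans h) (by simp)

/-- the fourfold point of a full side -/
theorem pen (hP : Par A.ε y2 ρ) (Q : Clu A y2 ρ) (c : Q.C) (s : Bool)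
    (h : ∀ k : Fin 7, k < 4 → ∃ L, Q.ty L = some (s, k) ∧ A.Meets L (KK A.ε ρ (Q.m c))) :
    Nonempty (Pen D (KK A.ε ρ (Q.m c)) fun z => sd s (act (Q.m c) z)) := by
  have hu := Q.uni c
  have he : 0 < A.ε := by linarith [hP.e1]
  obtain ⟨n, hn, e⟩ := ex_inv he hu
  have h1 : nq (sd s P0) < ρ := by
    rw [nq_sd]
    linarith [nq_P0, hP.r1]
  have h2 := h1.trans hP.r2
  have h3 := act_inv hu h2 hn e
  have h4 := act_lt hn h2
  generalize act n (sd s P0) = p at h3 h4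
  have h5 : p ∈ interior (KK A.ε ρ (Q.m c)) := mem_int hu h4 (h3.symm ▸ h1)
  have h6 : sd s (act (Q.m c) p) = P0 := by rw [h3, sd_sd]
  have hO : p ∈ D.Om := (P300LO.mem_Om A).2 h4
  have key : ∀ k : Fin 4, ∃ i, Q.ty (.inl i) = some (s, k.castLE (by decide)) ∧
      A.Meets (.inl i) (KK A.ε ρ (Q.m c)) := fun k => by
    obtain ⟨L, a, b⟩ := h (k.castLE (by decide)) k.2
    obtain ⟨i, rfl⟩ := ex_inl Q a
    exact ⟨i, a, b⟩
  choose l l1 l2 using key
  have li : Function.Injective l := fun k k' f => by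
    have := (l1 k).symm.trans (f ▸ l1 k')
    exact Fin.castLE_injective _ (Prod.mk.inj (Option.some.inj this)).2
  have l0 : ∀ k, ∀ z ∈ D.Om, aut (Q.m c) z * lb (17 / 20, (bb y2 (k.castLE (by decide))).2)
      (sd s (act (Q.m c) z)) = 0 → ev (A.fm (.inl (l k))) z = 0 := fun k z hz f => by
    obtain ⟨a, -, b⟩ := Q.mod c _ (l2 k)
    rw [b z hz, l1 k, mul_assoc]
    exact mul_eq_zero_of_right _ ((congrArg (fun b => _ * lb b _) (bb_lt k.2)).trans f)
  have lp : ∀ k, ev (A.fm (.inl (l k))) p = 0 := fun k =>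
    l0 k p hO (by rw [h6, lb_P0, mul_zero])
  have hS : p ∈ D.S := (A.ver p).2 ⟨hO, l 0, l 1, li.ne (by decide), lp 0, lp 1⟩
  have hd : {i | ev (A.fm (.inl i)) p = 0} = l '' univ := by
    refine Subset.antisymm (fun i hi => ?_) (by rintro _ ⟨k, -, rfl⟩; exact lp k)
    have hm : A.Meets (.inl i) (KK A.ε ρ (Q.m c)) := ⟨p, interior_subset h5, hi⟩
    obtain ⟨a, a0, b⟩ := Q.mod c _ hm
    obtain ⟨k, hk, f⟩ := (mf_P0 hP h6 _).1 ((mul_eq_zero.1 ((b p hO).symm.trans hi)).resolve_left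
      (mul_ne_zero a0 (aut_ne hu h4)))
    exact ⟨⟨k, hk⟩, trivial, Sum.inl_injective (Q.inj c _ _ (l2 _) hm ((l1 _).trans f.symm))⟩
  have lin : ∀ (y : ℝ) (u : ℂ × Cm 2), bd p u ∈ KK A.ε ρ (Q.m c) →
      aut (Q.m c) (bd p u) * lb (17 / 20, y) (sd s (act (Q.m c) (bd p u))) =
        u.1 * ((mulVec0 (p := 2) (Q.m c) 0 - (17 / 20 : ℂ) • sg (Q.m c) s 0) u.2 -
          y * sg (Q.m c) s 1 u.2) := fun y u hz => by
    obtain ⟨a, b⟩ := aff (Q.m c) s (17 / 20, y)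
    have b1 := b p (aut_ne hu h4)
    rw [h6, lb_P0, mul_zero] at b1
    rw [b _ (aut_ne hu hz.1)]
    simp only [bd, map_add, map_smul, smul_eq_mul, _root_.sub_apply,
      _root_.smul_apply]
    push_cast at b1 ⊢
    linear_combination -b1
  refine ⟨⟨⟨p, hS⟩, aut (Q.m c), _, _, ?_, h5, (cont_aut _).continuousOn,
    fun z hz => aut_ne hu hz.1, fun v a b => ?_, lin⟩⟩
  · have := A.deg p hS
    rw [hd, ncard_image_of_injective _ li, ncard_univ, Nat.card_fin] at this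
    show D.k p = 2
    omega
  · have c1 : ContinuousAt (fun t : ℂ => bd p (t, v)) 0 := by
      unfold bd
      fun_prop
    have c2 : ∀ᶠ t in 𝓝[≠] (0 : ℂ), bd p (t, v) ∈ KK A.ε ρ (Q.m c) :=
      nhdsWithin_le_nhds (c1.eventually_mem (by simpa [bd] using mem_interior_iff_mem_nhds.1 h5))
    obtain ⟨t, t1, t2⟩ := (c2.and self_mem_nhdsWithin).exists
    have c3 : ∀ k, ev (A.fm (.inl (l k))) (bd p (t, v)) = 0 := fun k =>
      l0 k _ ((P300LO.mem_Om A).2 t1.1) (by rw [lin _ _ t1, a, b]; simp)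
    have c4 := A.two _ _ (Sum.inl_injective.ne (li.ne (by decide : (0 : Fin 4) ≠ 1))) _ _
      (c3 0) (c3 1) (lp 0) (lp 1)
    exact (smul_eq_zero.1 (add_eq_left.1 c4)).resolve_left t2

theorem mod : MOD := by
  classical
  intro D A y2 ρ hP Q c
  have hu := Q.uni c
  have he : 0 < A.ε := by linarith [hP.e1]
  have hK := KK_cpt hu he hP.r2
  have hC := KK_cvx hu hP.r2
  have hO : KK A.ε ρ (Q.m c) ⊆ D.Om := fun z hz => (P300LO.mem_Om A).2 hz.1
  obtain ⟨r, hr, hb⟩ := P300LO.ex_Bl A hK hO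
  obtain ⟨T, U, cU, a, b⟩ := A.fac r hr
  choose! k k0 k1 using Q.mod c
  set S : Bool → Finset (Fin 7) := fun s => Finset.univ.filter fun i =>
    ∃ L, Q.ty L = some (s, i) ∧ A.Meets L (KK A.ε ρ (Q.m c)) with hS
  have mS : ∀ s i, i ∈ S s ↔ ∃ L, Q.ty L = some (s, i) ∧ A.Meets L (KK A.ε ρ (Q.m c)) :=
    fun s i => by simp [hS]
  have ty1 : ∀ i, Q.ty (.inl i) = some ((Q.ty (.inl i)).getD (false, 0)) := fun i => by
    rcases e : Q.ty (.inl i) with _ | j
    · obtain ⟨α, f⟩ := (Q.ty_d _).1 e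
      exact absurd f (by simp)
    · rfl
  have pr : ∀ X, ∏ i ∈ T with A.Meets (.inl i) (KK A.ε ρ (Q.m c)), mf y2 (Q.ty (.inl i)) X =
      ∏ s, ∏ i ∈ S s, lb (bb y2 i) (sd s X) := fun X => by
    rw [← Finset.prod_finset_product (Finset.univ.filter fun q : Bool × Fin 7 => q.2 ∈ S q.1)
      Finset.univ S (by simp) (f := fun q => lb (bb y2 q.2) (sd q.1 X))]
    refine Finset.prod_nbij (fun i => (Q.ty (.inl i)).getD (false, 0)) (fun i hi => ?_)
      (fun i hi j hj f => ?_) (fun q hq => ?_) fun i _ => by rw [ty1 i]; rfl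
    · exact Finset.mem_filter.2 ⟨Finset.mem_univ _, (mS _ _).2 ⟨_, ty1 i, (Finset.mem_filter.1 hi).2⟩⟩
    · exact Sum.inl_injective (Q.inj c _ _ (Finset.mem_filter.1 hi).2 (Finset.mem_filter.1 hj).2
        ((ty1 i).trans ((congrArg some f).trans (ty1 j).symm)))
    · obtain ⟨L, f, g⟩ := (mS _ _).1 (Finset.mem_filter.1 hq).2
      obtain ⟨i, rfl⟩ := ex_inl Q f
      refine ⟨i, Finset.mem_filter.2 ⟨b i (g.imp fun z hz => ⟨hb hz.1, hz.2⟩), g⟩, ?_⟩
      simp only [f, Option.getD_some]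
  obtain ⟨V, v1, v2⟩ := P300LO.ex_sqrt hC (g := fun z => U z *
    (∏ i ∈ T with ¬A.Meets (.inl i) (KK A.ε ρ (Q.m c)), ev (A.fm (.inl i)) z) *
      ∏ i ∈ T with A.Meets (.inl i) (KK A.ε ρ (Q.m c)), k (.inl i) * aut (Q.m c) z)
    (((cU.mono hb).mul (continuous_finsetProd _ fun i _ => P300LO.cont_ev _).continuousOn).mul
      (continuous_finsetProd _ fun i _ => continuous_const.mul (cont_aut _)).continuousOn)
    fun z hz => mul_ne_zero (mul_ne_zero (a z (hb hz)).1 (Finset.prod_ne_zero_iff.2 fun i hi f =>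
      (Finset.mem_filter.1 hi).2 ⟨z, hz, f⟩)) (Finset.prod_ne_zero_iff.2 fun i hi =>
        mul_ne_zero (k0 _ (Finset.mem_filter.1 hi).2) (aut_ne hu hz.1))
  refine ⟨⟨act (Q.m c), V, S, hK, hC, hO, (cont_act hu he).mono fun z hz => hz.1,
    fun z hz => (act_lt hu hz.1).le, v1, fun z hz => (v2 z hz).1, fun z hz => ?_, ?_, fun s => ?_⟩,
    fun _ => rfl, mS⟩
  · rw [(v2 z hz).2, (a z (hb hz)).2, ← pr, mul_assoc, mul_assoc, ← Finset.prod_mul_distrib,
      ← Finset.prod_filter_not_mul_prod_filter T fun i => A.Meets (.inl i) (KK A.ε ρ (Q.m c))]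
    congr 2
    exact Finset.prod_congr rfl fun i hi => k1 _ (Finset.mem_filter.1 hi).2 z (hO hz)
  · by_cases e : ∃ α, A.Meets (.inr α) (KK A.ε ρ (Q.m c))
    · obtain ⟨α, e⟩ := e
      have e1 := (Q.ty_d _).2 ⟨α, rfl⟩
      refine .inr ⟨α, fun z => k (.inr α) * aut (Q.m c) z,
        (continuous_const.mul (cont_aut _)).continuousOn, fun z hz =>
          ⟨mul_ne_zero (k0 _ e) (aut_ne hu hz.1), ?_⟩, fun β n z hz f => n (Sum.inr_injective
            (Q.inj c _ _ ⟨z, hz, f⟩ e (((Q.ty_d _).2 ⟨β, rfl⟩).trans e1.symm)))⟩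
      rw [k1 _ e z (hO hz), e1]
      rfl
    · exact .inl fun α z hz f => e ⟨α, z, hz, f⟩
  · refine or_iff_not_imp_left.2 fun n => ?_
    simp only [not_or, not_not, not_and_or] at n
    obtain ⟨n4, n5, n6, n0, n2⟩ := n
    have f : ∀ j : Fin 7, j < 4 → ∃ L, Q.ty L = some (s, j) ∧ A.Meets L (KK A.ε ρ (Q.m c)) :=
      n2.elim (fun g => Q.clo c s 0 2 (by decide) (by simp) (by simp) ((mS _ _).1 n0) ((mS _ _).1 g))
        fun g => Q.clo c s 0 3 (by decide) (by simp) (by simp) ((mS _ _).1 n0) ((mS _ _).1 g)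
    refine ⟨Finset.eq_univ_of_forall fun j => ?_, pen hP Q c s f⟩
    by_cases g : j < 4
    · exact (mS _ _).2 (f j g)
    · fin_cases j <;> first | exact absurd (by decide) g | assumption

end Vale.Agent.P300LZ
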